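import Mathlib.Analysis.InnerProductSpace.PiL2
import Mathlib.Analysis.SpecialFunctions.Pow.Real
import Mathlib.Combinatorics.Additive.Energy
import Mathlib.Data.Set.Card

/-!
# P054: the parts of the combined theorem on distinct distances in `ℝ^d`
-/

set_option autoImplicit false
set_option linter.all false

namespace Vale.Agent.P054.H421

/-- `g d n`: the least number of distinct distances determined by `n` points of `ℝ^d` -/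
noncomputable def g (d n : ℕ) : ℕ :=
  sInf {k : ℕ | ∃ P : Finset (EuclideanSpace ℝ (Fin d)), P.card = n ∧
    {r : ℝ | ∃ p ∈ P, ∃ q ∈ P, p ≠ q ∧ r = dist p q}.ncard = k}

/-- Dimension three: `g_3(n) ≥ c n^(2/3 - ε)` for every `ε > 0`. -/
def SpaceTwoThirds : Prop :=
  ∀ ε : ℝ, 0 < ε → ∃ c : ℝ, 0 < c ∧
    ∀ n : ℕ, 2 ≤ n → c * (n : ℝ) ^ ((2 : ℝ) / 3 - ε) ≤ ((g 3 n : ℕ) : ℝ)

/-- Every dimension: the exponent `2 d / (d^2 + 1) - ε`, for distances from one point of the set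
(pinned form) and for `g_d(n)`. -/
def AllDimensions : Prop :=
  ∀ d : ℕ, 1 ≤ d → ∀ ε : ℝ, 0 < ε → ∃ c : ℝ, 0 < c ∧
    (∀ P : Finset (EuclideanSpace ℝ (Fin d)), 2 ≤ P.card → ∃ p ∈ P,
      c * (P.card : ℝ) ^ (2 * (d : ℝ) / ((d : ℝ) ^ 2 + 1) - ε) ≤
        (({r : ℝ | ∃ q ∈ P, q ≠ p ∧ r = dist p q}.ncard : ℕ) : ℝ)) ∧
    (∀ n : ℕ, 2 ≤ n →
      c * (n : ℝ) ^ (2 * (d : ℝ) / ((d : ℝ) ^ 2 + 1) - ε) ≤ ((g d n : ℕ) : ℝ))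

/-- Sets with large additive energy: at least `c (E(P) / n^3)^e n^(2/d)` distances. -/
def LargeEnergy : Prop :=
  ∀ d : ℕ, 3 ≤ d → ∃ (c : ℝ) (e : ℕ), 0 < c ∧
    ∀ P : Finset (EuclideanSpace ℝ (Fin d)), 2 ≤ P.card →
      c * ((P.addEnergy P : ℝ) / (P.card : ℝ) ^ 3) ^ e * (P.card : ℝ) ^ (2 / (d : ℝ)) ≤
        (({r : ℝ | ∃ p ∈ P, ∃ q ∈ P, p ≠ q ∧ r = dist p q}.ncard : ℕ) : ℝ)

/-- Sets with at most `M` points on any hyperplane: some point of the set has at least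
`c n^(1 - ε) / M^(1 - 1/d)` distinct distances to the others. -/
def FewOnHyperplanes : Prop :=
  ∀ d : ℕ, 1 ≤ d → ∀ ε : ℝ, 0 < ε → ∃ c : ℝ, 0 < c ∧
    ∀ (P : Finset (EuclideanSpace ℝ (Fin d))) (M : ℕ), 2 ≤ P.card →
      (∀ (u : EuclideanSpace ℝ (Fin d)) (b : ℝ), u ≠ 0 →
        {z : EuclideanSpace ℝ (Fin d) | z ∈ P ∧ inner ℝ u z = b}.ncard ≤ M) →
      ∃ p ∈ P, c * ((P.card : ℝ) ^ (1 - ε) / (M : ℝ) ^ (1 - 1 / (d : ℝ))) ≤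
        (({r : ℝ | ∃ q ∈ P, q ≠ p ∧ r = dist p q}.ncard : ℕ) : ℝ)

/-- Sets of nearly minimal spread, in every dimension `d ≥ 2`: the exponent `2/d - ε` if the mutual
distances of the `n` points lie in `[r, r n^(1/d + η)]`, where `η > 0` depends on `d` and `ε`. -/
def NearlyMinimalSpread : Prop :=
  ∀ d : ℕ, 2 ≤ d → ∀ ε : ℝ, 0 < ε → ∃ η : ℝ, 0 < η ∧ ∃ c : ℝ, 0 < c ∧
    ∀ (P : Finset (EuclideanSpace ℝ (Fin d))) (r : ℝ), 2 ≤ P.card → 0 < r →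
      (∀ p ∈ P, ∀ q ∈ P, p ≠ q → r ≤ dist p q) →
      (∀ p ∈ P, ∀ q ∈ P, dist p q ≤ r * (P.card : ℝ) ^ ((1:ℝ) / d + η)) →
      c * (P.card : ℝ) ^ ((2:ℝ) / d - ε) ≤
        ({t : ℝ | ∃ p ∈ P, ∃ q ∈ P, p ≠ q ∧ dist p q = t}.ncard : ℝ)

/-- Homogeneous sets, in every dimension `d ≥ 2`: the exponent `2/d - ε` for `n` points of diameter
at most `K n^(1/d)` with at most `K` points in each closed ball of radius one. -/
def Homogeneous : Prop :=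
  ∀ d : ℕ, 2 ≤ d → ∀ ε : ℝ, 0 < ε → ∀ K : ℝ, ∃ c : ℝ, 0 < c ∧
    ∀ P : Finset (EuclideanSpace ℝ (Fin d)), 2 ≤ P.card →
      (∀ p ∈ P, ∀ q ∈ P, dist p q ≤ K * (P.card : ℝ) ^ ((1:ℝ) / d)) →
      (∀ x : EuclideanSpace ℝ (Fin d),
        ({p : EuclideanSpace ℝ (Fin d) | p ∈ P ∧ dist p x ≤ 1}.ncard : ℝ) ≤ K) →
      c * (P.card : ℝ) ^ ((2:ℝ) / d - ε) ≤
        ({t : ℝ | ∃ p ∈ P, ∃ q ∈ P, p ≠ q ∧ dist p q = t}.ncard : ℝ)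

/-- Sets which are `ρ`-dense in some ball of radius `R > ρ > 0`, in every dimension `d ≥ 2`: at least
`c (R/ρ)^(2 - ε)` distinct distances. -/
def DenseInBall : Prop :=
  ∀ d : ℕ, 2 ≤ d → ∀ ε : ℝ, 0 < ε → ∃ c : ℝ, 0 < c ∧
    ∀ (P : Finset (EuclideanSpace ℝ (Fin d))) (x : EuclideanSpace ℝ (Fin d)) (R ρ : ℝ),
      0 < ρ → ρ < R → (∀ y ∈ Metric.closedBall x R, ∃ p ∈ P, dist y p ≤ ρ) →
      c * (R / ρ) ^ (2 - ε) ≤
        ({t : ℝ | ∃ p ∈ P, ∃ q ∈ P, p ≠ q ∧ dist p q = t}.ncard : ℝ)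

end Vale.Agent.P054.H421
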